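import Vale.Agent.P167.H575.Side
import Vale.Agent.P167.H24.ChDef

/-!
# P167, rough channels in strips: the two sides (both colours)

`c` is the colour of the crossings, the walls are connected by the other colour. `lab_c`: the sides of
the sites of the colour `!c`; `sides`: the same for a pair `(ρ, u)` of connected sets of squares in the
first and in the last rows, with the event `Jn`: a path of the colour `!c` between a left and a right
wall excludes a crossing of the pair. `row_c`: a left and a right square in a row. `esc_of`,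
`noHole_of`, `noHole_rows`, `noHole_comp`: rows and components of a set without holes have no holes.
-/

set_option autoImplicit false

namespace Vale.Agent.P167.H575

open Relation (ReflTransGen)
open Vale.Agent.P145.FB (PStep)
open Vale.Agent.P167.H871 Vale.Agent.P167.H906 Vale.Agent.P167.H192.TA Vale.Agent.P167.H632
  Vale.Agent.P167.N Vale.Agent.P167.H24

/-! ### Translation by one -/

/-- Translation by one to the right. -/
def sh (x : Pt) : Pt := (x.1 + 1, x.2)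

/-- The translate of a set of squares. -/
def shs (F : Set Pt) : Set Pt := {v | (v.1 - 1, v.2) ∈ F}

theorem mem_shs {F : Set Pt} {v : Pt} : sh v ∈ shs F ↔ v ∈ F := by
  show (v.1 + 1 - 1, v.2) ∈ F ↔ _
  rw [add_sub_cancel_right]

theorem pw_sh {F : Set Pt} {a b : Pt} (h : Pw F a b) : Pw (shs F) (sh a) (sh b) := by
  refine rtg_map (φ := sh) (fun x y hxy => ?_) h
  obtain ⟨h1, h2, h3⟩ := hxy
  refine ⟨?_, h2, ?_⟩
  · unfold sh
    simp only
    omega
  · show (min (x.1 + 1) (y.1 + 1) - 1, min x.2 y.2) ∈ F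
    have : min (x.1 + 1) (y.1 + 1) - 1 = min x.1 y.1 := by omega
    rw [this]
    exact h3

theorem shs_compl (F : Set Pt) : shs Fᶜ = (shs F)ᶜ := rfl

theorem shs_rows (F : Set Pt) (a b : ℤ) : shs (Rows F a b) = Rows (shs F) a b := rfl

theorem shs_mono {F G : Set Pt} (h : F ⊆ G) : shs F ⊆ shs G := fun _ hv => h hv

theorem esc_sh {κ : Set Pt} {p : Pt} (h : Esc κ p) : Esc (shs κ) (sh p) := by
  obtain ⟨q, h1, h2⟩ := h
  refine ⟨sh q, pw_sh h1, ?_⟩
  rcases h2 with h2 | h2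
  · refine Or.inl fun v hv h3 => ?_
    have := h2 _ hv h3
    unfold sh
    simp only at this ⊢
    omega
  · refine Or.inr fun v hv h3 => ?_
    have := h2 _ hv h3
    unfold sh
    simp only at this ⊢
    omega

theorem esc_comm {κ : Set Pt} {p p' : Pt} (h : Pw κᶜ p p') (hp : Esc κ p) : Esc κ p' :=
  Esc.of_pw h.symm hp

/-! ### The sides, both colours -/

/-- **The sides, crossings of the colour `c`.** -/
theorem lab_c (c : Bool) {κ : Set Pt} {y0 m0 m1 y1 : ℤ} (h0 : y0 ≤ m0) (h1 : m1 < y1)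
    {s t : Pt} (hs : (s.1 + s.2) % 2 = pr c) (hs2 : s.2 = y0) (ht2 : t.2 = y1)
    (hst : Pw (Rows κ y0 y1) s t) :
    ∃ l : Pt → Bool,
      (∀ p : Pt, y0 ≤ p.2 → p.2 < y1 → (∀ v ∈ κ, v.2 = p.2 → p.1 ≤ v.1) → l p = true) ∧
      (∀ p : Pt, (∀ v ∈ κ, v.2 = p.2 → v.1 < p.1) → l p = false) ∧
      (∀ p p' : Pt, (p.1 + p.2) % 2 = pr (!c) → Pw (Rows κᶜ m0 m1) p p' → l p' = l p) ∧
      (∀ (p p' s' t' : Pt) (F G : Set Pt), (p.1 + p.2) % 2 = pr (!c) → m0 ≤ p.2 → p.2 < m1 →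
        m0 ≤ p'.2 → p'.2 < m1 → Esc κ p → Esc κ p' → Pw (Rows κ y0 m0) s s' →
        Pw (Rows κ m1 y1) t t' → Pw F s' t' → s'.2 = y0 → t'.2 = y1 → F ⊆ κ →
        (∀ v ∈ G, v ∉ F ∧ m0 ≤ v.2 ∧ v.2 < m1) → Pw G p p' → l p' = l p) := by
  classical
  cases c
  · obtain ⟨l, l1, l2, l3, l4⟩ := exists_lab (κ := shs κ) h0 h1 (s := sh s) (t := sh t)
      (by simp only [pr, Bool.false_eq_true, if_false] at hs; unfold sh; rw [Int.even_iff]
          simp only; omega) hs2 ht2 (pw_sh hst)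
    have hodd : ∀ p : Pt, (p.1 + p.2) % 2 = pr (!false) → Odd ((sh p).1 + (sh p).2) := by
      intro p hp
      simp only [pr, Bool.not_false, if_true] at hp
      unfold sh; rw [Int.odd_iff]; simp only; omega
    refine ⟨fun p => decide (l (sh p) = 1), fun p hp1 hp2 hp => ?_, fun p hp => ?_,
      fun p p' hp hpp => ?_, ?_⟩
    · refine decide_eq_true (l1 (sh p) hp1 hp2 fun v hv h2 => ?_)
      have := hp _ hv h2
      unfold sh; simp only at this ⊢; omega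
    · have : l (sh p) = 0 := l2 (sh p) fun v hv h2 => by
        have := hp _ hv h2
        unfold sh; simp only at this ⊢; omega
      simp only [this]; decide
    · have := l3 (sh p) (sh p') (hodd p hp) (pw_sh hpp)
      simp only [this]
    · intro p p' s' t' F G hp hp1 hp2 hp1' hp2' he he' hss htt hF hs' ht' hFκ hG hpp
      have := l4 (sh p) (sh p') (sh s') (sh t') (shs F) (shs G) (hodd p hp) hp1 hp2 hp1' hp2'
        (esc_sh he) (esc_sh he') (pw_sh hss) (pw_sh htt) (pw_sh hF) hs' ht' (shs_mono hFκ)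
        (fun v hv => hG _ hv) (pw_sh hpp)
      simp only [this]
  · obtain ⟨l, l1, l2, l3, l4⟩ := exists_lab (κ := κ) h0 h1 (s := s) (t := t)
      (by simp only [pr, if_true] at hs; rw [Int.even_iff]; exact hs) hs2 ht2 hst
    have hodd : ∀ p : Pt, (p.1 + p.2) % 2 = pr (!true) → Odd (p.1 + p.2) := by
      intro p hp
      simp only [pr, Bool.not_true, Bool.false_eq_true, if_false] at hp
      rw [Int.odd_iff]; exact hp
    refine ⟨fun p => decide (l p = 1), fun p hp1 hp2 hp => decide_eq_true (l1 p hp1 hp2 hp),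
      fun p hp => ?_, fun p p' hp hpp => ?_, ?_⟩
    · simp only [l2 p hp]; decide
    · simp only [l3 p p' (hodd p hp) hpp]
    · intro p p' s' t' F G hp hp1 hp2 hp1' hp2' he he' hss htt hF hs' ht' hFκ hG hpp
      simp only [l4 p p' s' t' F G (hodd p hp) hp1 hp2 hp1' hp2' he he' hss htt hF hs' ht' hFκ hG
        hpp]

/-! ### Walls -/

theorem Jd.pw {c : Bool} {F : Set Pt} {v v' : Pt} (h : Jd c F v v') :
    ∀ p p' : Pt, NET.Cor c v p → NET.Cor c v' p' → Pw F p p' := by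
  obtain ⟨h1, h2⟩ := h
  have hmem : ∀ w, ReflTransGen (fun a b => b ∈ F ∧ Adj c a b) v w → w ∈ F := fun w hw => by
    rcases ReflTransGen.cases_tail hw with h | ⟨z, -, h⟩
    · exact h ▸ h1
    · exact h.1
  induction h2 with
  | refl => exact fun p p' hp hp' => NET.pw_of_cor h1 hp hp'
  | @tail a b hab hb ih =>
    intro p p' hp hp'
    obtain ⟨x, hx1, hx2⟩ := hb.2
    exact (ih p x hp hx1).trans (NET.pw_of_cor hb.1 hx2 hp')

/-- The corner of the colour `c` of `v` on the line `v.2`. -/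
theorem exists_lo (c : Bool) (v : Pt) : ∃ x, NET.Cor c v x ∧ x.2 = v.2 := by
  rcases Int.emod_two_eq (v.1 + v.2 + pr c) with h | h
  · exact ⟨v, ⟨Or.inl rfl, Or.inl rfl, by have := pr_or c; omega⟩, rfl⟩
  · exact ⟨(v.1 + 1, v.2), ⟨Or.inr rfl, Or.inl rfl, by have := pr_or c; dsimp only; omega⟩, rfl⟩

/-- The corner of the colour `c` of `v` on the line `v.2 + 1`. -/
theorem exists_hi (c : Bool) (v : Pt) : ∃ x, NET.Cor c v x ∧ x.2 = v.2 + 1 := by
  rcases Int.emod_two_eq (v.1 + v.2 + pr c) with h | h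
  · exact ⟨(v.1 + 1, v.2 + 1), ⟨Or.inr rfl, Or.inr rfl, by have := pr_or c; dsimp only; omega⟩, rfl⟩
  · exact ⟨(v.1, v.2 + 1), ⟨Or.inl rfl, Or.inr rfl, by have := pr_or c; dsimp only; omega⟩, rfl⟩

/-- The corners of a square outside of the strip escape. -/
theorem esc_out {c : Bool} {κ : Finset Pt} {y0 y1 : ℤ} (hκ : ∀ v ∈ κ, v ∈ Rw y0 y1) {v p : Pt}
    (hv : v ∉ Rw y0 y1) (hp : NET.Cor c v p) : Esc ↑κ p := by
  obtain ⟨x, hx1, hx2⟩ := exists_lo c v
  have hvκ : v ∈ (↑κ : Set Pt)ᶜ := fun h => hv (hκ v h)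
  refine ⟨x, NET.pw_of_cor hvκ hp hx1, Or.inl fun w hw h2 => absurd ?_ hv⟩
  have := hκ w hw
  unfold Rw at *
  simp only [Set.mem_ofPred_eq] at *
  omega

/-- **Escape from no holes.** -/
theorem esc_of {c : Bool} {κ : Finset Pt} {y0 y1 : ℤ} (hκ : ∀ v ∈ κ, v ∈ Rw y0 y1)
    (hN : NoHole c κ y0 y1) {v p : Pt} (hv : v ∉ κ) (hp : NET.Cor (!c) v p) : Esc ↑κ p := by
  by_cases hs : v ∈ Rw y0 y1
  · obtain ⟨v', h1, h2⟩ := hN v hs hv
    have h3 : Jd (!c) (↑κ : Set Pt)ᶜ v v' := h1.mono fun w hw => hw.2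
    have hv' : v' ∈ (↑κ : Set Pt)ᶜ := h3.mem
    rcases h2 with h2 | h2 | h2
    · -- first row
      obtain ⟨x, hx1, hx2⟩ := exists_lo (!c) v'
      -- the square below
      have hb : (v'.1, v'.2 - 1) ∉ Rw y0 y1 := by
        unfold Rw; simp only [Set.mem_ofPred_eq]; omega
      by_cases hxx : x.1 = v'.1
      · refine Esc.of_pw (Jd.pw h3 p x hp hx1) (esc_out (c := !c) hκ hb ?_)
        refine ⟨Or.inl hxx, Or.inr ?_, hx1.2.2⟩
        simp only; omega
      · refine Esc.of_pw (Jd.pw h3 p x hp hx1) (esc_out (c := !c) hκ hb ?_)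
        refine ⟨Or.inr ?_, Or.inr ?_, hx1.2.2⟩
        · have := hx1.1; simp only; omega
        · simp only; omega
    · -- last row
      obtain ⟨x, hx1, hx2⟩ := exists_hi (!c) v'
      refine ⟨x, Jd.pw h3 p x hp hx1, Or.inl fun w hw h4 => ?_⟩
      have := (hκ w hw).2
      omega
    · obtain ⟨x, hx1, hx2⟩ := exists_lo (!c) v'
      refine ⟨x, Jd.pw h3 p x hp hx1, ?_⟩
      rcases h2 with h2 | h2
      · refine Or.inr fun w hw _ => ?_
        have := h2 w hw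
        have := hx1.1
        omega
      · refine Or.inl fun w hw _ => ?_
        have := h2 w hw
        have := hx1.1
        omega
  · exact esc_out hκ hs hp

/-- Two squares with a common corner. -/
theorem adj_cor {c : Bool} {v v' x : Pt} (h : NET.Cor c v x) (h' : NET.Cor c v' x) : Adj c v v' :=
  ⟨x, h, h'⟩

/-- **No holes from escape.** -/
theorem noHole_of {c : Bool} {κ : Finset Pt} {y0 y1 : ℤ}
    (h : ∀ v p : Pt, v ∈ Rw y0 y1 → v ∉ κ → NET.Cor (!c) v p → Esc ↑κ p) : NoHole c κ y0 y1 := by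
  classical
  intro v hv hvκ
  obtain ⟨p, hp⟩ := NET.exists_cor (!c) v
  obtain ⟨q, h1, h2⟩ := h v p hv hvκ hp
  -- follow the path
  have key : ∀ x, Pw (↑κ : Set Pt)ᶜ p x →
      (∃ v', Jd (!c) {z | z ∈ Rw y0 y1 ∧ z ∉ κ} v v' ∧ (v'.2 = y0 ∨ v'.2 = y1 - 1)) ∨
      (∃ v', Jd (!c) {z | z ∈ Rw y0 y1 ∧ z ∉ κ} v v' ∧ NET.Cor (!c) v' x) := by
    intro x hx
    induction hx with
    | refl => exact Or.inr ⟨v, Jd.refl ⟨hv, hvκ⟩, hp⟩
    | @tail x x' hx hxx ih =>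
      rcases ih with ih | ⟨v', k1, k2⟩
      · exact Or.inl ih
      · obtain ⟨c1, c2, -⟩ := NET.cor_of_step (c := !c) hxx k2.2.2
        by_cases hw : (min x.1 x'.1, min x.2 x'.2) ∈ Rw y0 y1
        · exact Or.inr ⟨_, k1.tail ⟨hw, hxx.2.2⟩ ⟨x, k2, c1⟩, c2⟩
        · refine Or.inl ⟨v', k1, ?_⟩
          have hv'' := k1.mem.1
          have hA := (Adj.coord (v := v') (v' := (min x.1 x'.1, min x.2 x'.2)) ⟨x, k2, c1⟩)
          unfold Rw at hw hv''
          simp only [Set.mem_ofPred_eq] at hw hv'' hA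
          omega
  rcases key q h1 with ⟨v', k1, k2⟩ | ⟨v', k1, k2⟩
  · exact ⟨v', k1, by tauto⟩
  · have hv'' := k1.mem.1
    by_cases hrow : v'.2 = y0 ∨ v'.2 = y1 - 1
    · exact ⟨v', k1, by tauto⟩
    · push Not at hrow
      have hq2 : q.2 = v'.2 ∨ q.2 = v'.2 + 1 := k2.2.1
      have hq1 : q.1 = v'.1 ∨ q.1 = v'.1 + 1 := k2.1
      unfold Rw at hv''
      simp only [Set.mem_ofPred_eq] at hv''
      have hqr : y0 ≤ q.2 ∧ q.2 < y1 := by omega
      -- a bound for `κ`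
      obtain ⟨B, hB⟩ : ∃ B : ℤ, ∀ z ∈ κ, -B < z.1 ∧ z.1 < B := by
        refine ⟨κ.sum (fun z => |z.1|) + 1, fun z hz => ?_⟩
        have := Finset.single_le_sum (f := fun z : Pt => |z.1|) (fun _ _ => abs_nonneg _) hz
        try simp only at this
        have a1 := neg_abs_le z.1
        have a2 := le_abs_self z.1
        omega
      rcases h2 with h2 | h2
      · -- to the left
        have hz : ∀ n : ℕ, Jd (!c) {z | z ∈ Rw y0 y1 ∧ z ∉ κ} v (q.1 - 1 - n, q.2) := by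
          intro n
          induction n with
          | zero =>
            refine k1.tail ⟨hqr, fun h3 => ?_⟩ ⟨q, k2, ?_⟩
            · have := h2 _ h3 rfl
              push_cast at this; omega
            · exact ⟨Or.inr (by push_cast; ring), Or.inl rfl, k2.2.2⟩
          | succ n ih =>
            refine ih.tail ⟨hqr, fun h3 => ?_⟩ (Adj.symm ?_)
            · have := h2 _ h3 rfl
              push_cast at this; omega
            · have := adj_right (!c) (q.1 - 1 - ((n + 1 : ℕ) : ℤ), q.2)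
              have e : q.1 - 1 - ((n + 1 : ℕ) : ℤ) + 1 = q.1 - 1 - n := by push_cast; ring
              simp only [e] at this
              exact this
        refine ⟨_, hz (|q.1| + |B|).toNat, Or.inr (Or.inr (Or.inr fun z hz => ?_))⟩
        have e : (((|q.1| + |B|).toNat : ℕ) : ℤ) = |q.1| + |B| :=
          Int.toNat_of_nonneg (by positivity)
        have a1 := neg_abs_le q.1
        have a2 := le_abs_self q.1
        have a3 := le_abs_self B
        have := (hB z hz).1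
        simp only [e]
        omega
      · have hz : ∀ n : ℕ, Jd (!c) {z | z ∈ Rw y0 y1 ∧ z ∉ κ} v (q.1 + n, q.2) := by
          intro n
          induction n with
          | zero =>
            refine k1.tail ⟨hqr, fun h3 => ?_⟩ ⟨q, k2, ?_⟩
            · have := h2 _ h3 rfl
              push_cast at this; omega
            · exact ⟨Or.inl (by push_cast; ring), Or.inl rfl, k2.2.2⟩
          | succ n ih =>
            refine ih.tail ⟨hqr, fun h3 => ?_⟩ ?_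
            · have := h2 _ h3 rfl
              push_cast at this; omega
            · have := adj_right (!c) (q.1 + n, q.2)
              have e : q.1 + ((n + 1 : ℕ) : ℤ) = q.1 + n + 1 := by push_cast; ring
              simp only [e]
              exact this
        refine ⟨_, hz (|q.1| + |B|).toNat, Or.inr (Or.inr (Or.inl fun z hz => ?_))⟩
        have e : (((|q.1| + |B|).toNat : ℕ) : ℤ) = |q.1| + |B| :=
          Int.toNat_of_nonneg (by positivity)
        have a1 := neg_abs_le q.1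
        have a3 := le_abs_self B
        have := (hB z hz).2
        simp only [e]
        omega

/-- **Rows of a set without holes.** -/
theorem noHole_rows {c : Bool} {κ κ' : Finset Pt} {y0 y1 a b : ℤ} (hκ : ∀ v ∈ κ, v ∈ Rw y0 y1)
    (hN : NoHole c κ y0 y1) (hκ' : ∀ v, v ∈ κ' ↔ v ∈ κ ∧ v ∈ Rw a b) : NoHole c κ' a b := by
  refine noHole_of fun v p hv hvκ hp => ?_
  have : v ∉ κ := fun h => hvκ ((hκ' v).2 ⟨h, hv⟩)
  exact (esc_of hκ hN this hp).mono fun w hw => ((hκ' w).1 hw).1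

/-- **Components of a set without holes.** -/
theorem noHole_comp {c : Bool} {κ κ' : Finset Pt} {y0 y1 : ℤ} (hκ : ∀ v ∈ κ, v ∈ Rw y0 y1)
    (hN : NoHole c κ y0 y1) (hs : κ' ⊆ κ) (hc : ∀ v ∈ κ', ∀ w ∈ κ, Adj c v w → w ∈ κ') :
    NoHole c κ' y0 y1 := by
  obtain ⟨B, hB⟩ : ∃ B : ℤ, ∀ z ∈ κ', z.1 < B := by
    refine ⟨κ'.sum (fun z => |z.1|) + 1, fun z hz => ?_⟩
    have := Finset.single_le_sum (f := fun z : Pt => |z.1|) (fun _ _ => abs_nonneg _) hz
    try simp only at this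
    have a2 := le_abs_self z.1
    omega
  have key : ∀ n : ℕ, ∀ p : Pt, B ≤ p.1 + n → (∃ v, v ∉ κ' ∧ NET.Cor (!c) v p) →
      Esc (↑κ' : Set Pt) p := by
    intro n
    induction n with
    | zero =>
      intro p hn _
      refine ⟨p, ReflTransGen.refl, Or.inr fun w hw _ => ?_⟩
      have := hB w hw
      push_cast at hn
      omega
    | succ n ih =>
      rintro ⟨p1, p2⟩ hn ⟨v, hv, hvp⟩
      by_cases hall : ∀ w : Pt, NET.Cor (!c) w (p1, p2) → w ∈ κ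
      · have hpar : (p1 + p2) % 2 = pr (!c) := hvp.2.2
        have hpc := pr_or c
        rw [pr_not] at hpar
        have hnot : (p1, p2) ∉ κ' → Esc (↑κ' : Set Pt) (p1, p2) := by
          intro hne
          refine Esc.of_pw (q := (p1 + 1, p2 + 1)) (ReflTransGen.single ⟨Or.inl rfl, Or.inl rfl, ?_⟩)
            (ih (p1 + 1, p2 + 1) ?_ ⟨(p1, p2), hne, ?_⟩)
          · have e1 : min p1 (p1 + 1) = p1 := by omega
            have e2 : min p2 (p2 + 1) = p2 := by omega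
            simp only [e1, e2]
            exact hne
          · push_cast at hn ⊢; omega
          · exact ⟨Or.inr rfl, Or.inr rfl, by rw [pr_not]; simp only; omega⟩
        refine hnot fun hne => hv ?_
        have c1 : NET.Cor (!c) (p1, p2) (p1, p2) := ⟨Or.inl rfl, Or.inl rfl, by rw [pr_not]; exact hpar⟩
        have c2 : NET.Cor (!c) (p1 - 1, p2) (p1, p2) :=
          ⟨Or.inr (by simp), Or.inl rfl, by rw [pr_not]; exact hpar⟩
        have c3 : NET.Cor (!c) (p1, p2 - 1) (p1, p2) :=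
          ⟨Or.inl rfl, Or.inr (by simp), by rw [pr_not]; exact hpar⟩
        have c4 : NET.Cor (!c) (p1 - 1, p2 - 1) (p1, p2) :=
          ⟨Or.inr (by simp), Or.inr (by simp), by rw [pr_not]; exact hpar⟩
        have k2 : (p1 - 1, p2) ∈ κ' := hc _ hne _ (hall _ c2) ⟨(p1, p2 + 1),
          ⟨Or.inl rfl, Or.inr rfl, by simp only; omega⟩,
          ⟨Or.inr (by simp), Or.inr rfl, by simp only; omega⟩⟩
        have k3 : (p1, p2 - 1) ∈ κ' := hc _ hne _ (hall _ c3) ⟨(p1 + 1, p2),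
          ⟨Or.inr rfl, Or.inl rfl, by simp only; omega⟩,
          ⟨Or.inr rfl, Or.inr (by simp), by simp only; omega⟩⟩
        have k4 : (p1 - 1, p2 - 1) ∈ κ' := hc _ k2 _ (hall _ c4) ⟨(p1 - 1, p2),
          ⟨Or.inl rfl, Or.inl rfl, by simp only; omega⟩,
          ⟨Or.inl rfl, Or.inr (by simp), by simp only; omega⟩⟩
        obtain ⟨v1, v2⟩ := v
        obtain ⟨h1, h2, -⟩ := hvp
        simp only at h1 h2
        rcases h1 with h1 | h1 <;> rcases h2 with h2 | h2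
        · rw [← h1, ← h2]; exact hne
        · have : v2 = p2 - 1 := by omega
          rw [← h1, this]; exact k3
        · have : v1 = p1 - 1 := by omega
          rw [← h2, this]; exact k2
        · have e1 : v1 = p1 - 1 := by omega
          have e2 : v2 = p2 - 1 := by omega
          rw [e1, e2]; exact k4
      · push Not at hall
        obtain ⟨w, hw1, hw2⟩ := hall
        exact (esc_of hκ hN hw2 hw1).mono (Finset.coe_subset.2 hs)
  refine noHole_of fun v p _ hv hp => key (B - p.1).toNat p ?_ ⟨v, hv, hp⟩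
  have := Int.self_le_toNat (B - p.1)
  omega

/-! ### The pair -/

/-- **The sides of a pair.** -/
theorem sides (c : Bool) {κ : Finset Pt} {y0 m0 m1 y1 : ℤ} (h0 : y0 ≤ m0) (h1 : m1 < y1)
    (hκ : ∀ v ∈ κ, v ∈ Rw y0 y1) (hN : NoHole c κ y0 y1) {ρ u : Set Pt}
    (hρ : ∀ v ∈ ρ, v ∈ κ ∧ v.2 < m0) (hρc : ∀ v ∈ ρ, ∀ v' ∈ ρ, Jd c ρ v v')
    (hu : ∀ v ∈ u, v ∈ κ ∧ m1 ≤ v.2) (huc : ∀ v ∈ u, ∀ v' ∈ u, Jd c u v v')
    (hex : ∃ s ∈ NET.Vc c ρ ∩ rw c y0, ∃ t ∈ NET.Vc c u ∩ rw c y1, Pw ↑κ s t) :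
    ∃ l : Pt → Bool,
      (∀ p : Pt, y0 ≤ p.2 → p.2 < y1 → (∀ v ∈ κ, v.2 = p.2 → p.1 ≤ v.1) → l p = true) ∧
      (∀ p : Pt, (∀ v ∈ κ, v.2 = p.2 → v.1 < p.1) → l p = false) ∧
      (∀ p p' : Pt, (p.1 + p.2) % 2 = pr (!c) → Pw {v | v ∉ κ ∧ v ∈ Rw m0 m1} p p' → l p' = l p) ∧
      (∀ G : Set Pt, G ⊆ Rw m0 m1 → ∀ X Y : Set Pt,
        (∀ p ∈ X, m0 ≤ p.2 ∧ p.2 < m1 ∧ l p = true ∧ ∃ v, v ∉ κ ∧ NET.Cor (!c) v p) →
        (∀ p ∈ Y, m0 ≤ p.2 ∧ p.2 < m1 ∧ l p = false ∧ ∃ v, v ∉ κ ∧ NET.Cor (!c) v p) →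
        ∀ ω, ω ∈ NET.Jn (!c) G X Y →
          ω ∉ NET.Jn c ↑κ (NET.Vc c ρ ∩ rw c y0) (NET.Vc c u ∩ rw c y1)) := by
  obtain ⟨s, ⟨⟨vs, hvs, hsv⟩, hs2, hs3⟩, t, ⟨⟨vt, hvt, htv⟩, ht2, ht3⟩, hst⟩ := hex
  have hrows : (↑κ : Set Pt) = Rows ↑κ y0 y1 := by
    ext v
    exact ⟨fun h => ⟨h, hκ v h⟩, fun h => h.1⟩
  obtain ⟨l, l1, l2, l3, l4⟩ := lab_c c h0 h1 hs3 hs2 ht2 (κ := ↑κ) (by rw [← hrows]; exact hst)
  refine ⟨l, l1, l2, fun p p' hp hpp => l3 p p' hp (Pw.mono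
    (G := Rows (↑κ : Set Pt)ᶜ m0 m1) (fun v hv => ⟨hv.1, hv.2⟩) hpp), ?_⟩
  rintro G hG X Y hX hY ω ⟨p, hp, p', hp', hpp⟩
    ⟨s', ⟨⟨vs', hvs', hsv'⟩, hs2', hs3'⟩, t', ⟨⟨vt', hvt', htv'⟩, ht2', ht3'⟩, hst'⟩
  obtain ⟨hp1, hp2, hp3, v, hv, hvp⟩ := hX p hp
  obtain ⟨hp1', hp2', hp3', v', hv', hvp'⟩ := hY p' hp'
  have := l4 p p' s' t' (cs c ω ∩ ↑κ) (cs (!c) ω ∩ G) hvp.2.2 hp1 hp2 hp1' hp2'
    (esc_of hκ hN hv hvp) (esc_of hκ hN hv' hvp')
    (Pw.mono (F := ρ) (G := Rows ↑κ y0 m0)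
      (fun w hw => ⟨(hρ w hw).1, (hκ w (hρ w hw).1).1, (hρ w hw).2⟩)
      (Jd.pw (hρc _ hvs _ hvs') s s' hsv hsv'))
    (Pw.mono (F := u) (G := Rows ↑κ m1 y1)
      (fun w hw => ⟨(hu w hw).1, (hu w hw).2, (hκ w (hu w hw).1).2⟩)
      (Jd.pw (huc _ hvt _ hvt') t t' htv htv'))
    hst' hs2' ht2' Set.inter_subset_right (fun w hw => ⟨fun h => by
      have e1 := hw.1
      have e2 := h.1
      simp only [cs, Set.mem_ofPred_eq] at e1 e2
      rw [e1] at e2
      cases c <;> simp at e2, hG hw.2⟩) hpp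
  rw [hp3, hp3'] at this
  exact Bool.false_ne_true this

/-- **A row.** -/
theorem row_c (c : Bool) {κ : Finset Pt} {y m0 m1 : ℤ} (hy0 : m0 ≤ y) (hy1 : y < m1)
    {l : Pt → Bool}
    (hl1 : ∀ p : Pt, p.2 = y → (∀ v ∈ κ, v.2 = p.2 → p.1 ≤ v.1) → l p = true)
    (hl0 : ∀ p : Pt, p.2 = y → (∀ v ∈ κ, v.2 = p.2 → v.1 < p.1) → l p = false)
    (hl : ∀ p p' : Pt, (p.1 + p.2) % 2 = pr (!c) → Pw {v | v ∉ κ ∧ v ∈ Rw m0 m1} p p' →
      l p' = l p) :
    ∃ x1 x2 : ℤ, x1 < x2 ∧ (x1, y) ∉ κ ∧ (x2, y) ∉ κ ∧ (∀ x, x1 < x → x < x2 → (x, y) ∈ κ) ∧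
      (∀ p, NET.Cor (!c) (x1, y) p → l p = true) ∧ (∀ p, NET.Cor (!c) (x2, y) p → l p = false) ∧
      x2 - x1 ≤ (κ.filter fun v => v.2 = y).card + 1 := by
  classical
  have hsame : ∀ v p p' : Pt, v ∉ κ → v.2 = y → NET.Cor (!c) v p → NET.Cor (!c) v p' →
      l p' = l p := fun v p p' hv hvy hp hp' =>
    hl p p' hp.2.2 (NET.pw_of_cor (v := v) ⟨hv, by unfold Rw; simp only [Set.mem_ofPred_eq]; omega⟩
      hp hp')
  obtain ⟨B, hB1, hB⟩ : ∃ B : ℤ, 1 ≤ B ∧ ∀ z ∈ κ, -B < z.1 ∧ z.1 < B := by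
    refine ⟨κ.sum (fun z => |z.1|) + 1, ?_, fun z hz => ?_⟩
    · have := Finset.sum_nonneg (s := κ) (f := fun z : Pt => |z.1|) fun _ _ => abs_nonneg _
      omega
    · have := Finset.single_le_sum (f := fun z : Pt => |z.1|) (fun _ _ => abs_nonneg _) hz
      try simp only at this
      have a1 := neg_abs_le z.1
      have a2 := le_abs_self z.1
      omega
  -- the last left square
  let P : ℤ → Prop := fun x => (x, y) ∉ κ ∧ ∀ p, NET.Cor (!c) (x, y) p → l p = true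
  let S : Finset ℤ := (Finset.Icc (-B - 1) (B + 1)).filter P
  have hLm : -B - 1 ∈ S := by
    refine Finset.mem_filter.2 ⟨Finset.mem_Icc.2 ⟨le_rfl, by omega⟩, fun h => ?_, fun p hp => ?_⟩
    · have := (hB _ h).1
      simp only at this
      omega
    · have hnot : (-B - 1, y) ∉ κ := fun h => by
        have := (hB _ h).1
        simp only at this
        omega
      obtain ⟨x, hx1, hx2⟩ := exists_lo (!c) (-B - 1, y)
      rw [hsame _ x p hnot rfl hx1 hp]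
      refine hl1 x hx2 fun v hv h2 => ?_
      have h3 := (hB v hv).1
      have h4 := hx1.1
      simp only at h4
      omega
  have hne : S.Nonempty := ⟨_, hLm⟩
  obtain ⟨h1a, h1b, h1c⟩ := Finset.mem_filter.1 (S.max'_mem hne)
  have h1d : ∀ x, P x → x ≤ B + 1 → x ≤ S.max' hne := by
    intro x hx1 hx3
    by_cases h : -B - 1 ≤ x
    · exact S.le_max' _ (Finset.mem_filter.2 ⟨Finset.mem_Icc.2 ⟨h, hx3⟩, hx1⟩)
    · exact le_trans (by omega) (S.le_max' _ hLm)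
  set x1 := S.max' hne with hx1
  have hR : (B + 1, y) ∉ κ := fun h => by
    have := (hB _ h).2
    simp only at this
    omega
  have hR0 : ∀ p, NET.Cor (!c) (B + 1, y) p → l p = false := by
    intro p hp
    obtain ⟨x, hx1, hx2⟩ := exists_lo (!c) (B + 1, y)
    rw [hsame _ x p hR rfl hx1 hp]
    refine hl0 x hx2 fun v hv h2 => ?_
    have h3 := (hB v hv).2
    have h4 := hx1.1
    simp only at h4
    omega
  have hx1R : x1 < B + 1 := by
    have h2 := (Finset.mem_Icc.1 h1a).2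
    rcases lt_or_eq_of_le h2 with h3 | h3
    · exact h3
    · obtain ⟨p, hp⟩ := NET.exists_cor (!c) (B + 1, y)
      rw [h3] at h1c
      have e1 := h1c p hp
      rw [hR0 p hp] at e1
      exact absurd e1 Bool.false_ne_true
  let T : Finset ℤ := (Finset.Ioc x1 (B + 1)).filter fun x => (x, y) ∉ κ
  have hT : B + 1 ∈ T := Finset.mem_filter.2 ⟨Finset.mem_Ioc.2 ⟨hx1R, le_rfl⟩, hR⟩
  have hTne : T.Nonempty := ⟨_, hT⟩
  obtain ⟨h2a, h2b⟩ := Finset.mem_filter.1 (T.min'_mem hTne)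
  have h2l := (Finset.mem_Ioc.1 h2a).1
  have h2r := (Finset.mem_Ioc.1 h2a).2
  have h2d : ∀ x, x1 < x → x < T.min' hTne → (x, y) ∈ κ := by
    intro x hx hx'
    by_contra h
    have := T.min'_le x (Finset.mem_filter.2 ⟨Finset.mem_Ioc.2 ⟨hx, by omega⟩, h⟩)
    omega
  refine ⟨x1, T.min' hTne, h2l, h1b, h2b, h2d, h1c, ?_, ?_⟩
  · intro p hp
    by_contra hlp
    have hlp' : l p = true := by
      cases h : l p
      · exact absurd h hlp
      · rfl
    have : P (T.min' hTne) := ⟨h2b, fun p' hp' => by rw [hsame _ p p' h2b rfl hp hp', hlp']⟩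
    have := h1d _ this h2r
    omega
  · have hsub : (Finset.Ioo x1 (T.min' hTne)).card ≤ (κ.filter fun v => v.2 = y).card := by
      refine Finset.card_le_card_of_injOn (fun x => (x, y)) (fun x hx => ?_) fun x _ x' _ h => ?_
      · have hx' := Finset.mem_Ioo.1 (Finset.mem_coe.1 hx)
        exact Finset.mem_coe.2 (Finset.mem_filter.2 ⟨h2d x hx'.1 hx'.2, rfl⟩)
      · exact (Prod.mk.inj h).1
    rw [Int.card_Ioo] at hsub
    omega

/-! ### Parts of a crossing -/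

theorem cut_up {F : Set (ℤ × ℤ)} {a b : ℤ × ℤ} {y : ℤ} (ha : a.2 ≤ y) (hb : y ≤ b.2)
    (h : Pw F a b) : ∃ t : ℤ × ℤ, t.2 = y ∧ Pw {v | v ∈ F ∧ v.2 < y} a t ∧ Pw F t b := by
  induction h using ReflTransGen.head_induction_on with
  | refl => exact ⟨b, le_antisymm ha hb, ReflTransGen.refl, ReflTransGen.refl⟩
  | @head a a' h1 h2 ih =>
    by_cases e : a.2 = y
    · exact ⟨a, e, ReflTransGen.refl, ReflTransGen.head h1 h2⟩
    · obtain ⟨t, t1, t2, t3⟩ := ih (by have := h1.2.1; omega)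
      exact ⟨t, t1, ReflTransGen.head ⟨h1.1, h1.2.1, h1.2.2, by simp only; omega⟩ t2, t3⟩

theorem cut_lo {F : Set (ℤ × ℤ)} {a b : ℤ × ℤ} {y : ℤ} (ha : a.2 ≤ y) (hb : y ≤ b.2)
    (h : Pw F a b) : ∃ s : ℤ × ℤ, s.2 = y ∧ Pw {v | v ∈ F ∧ y ≤ v.2} s b ∧ Pw F a s := by
  induction h with
  | refl => exact ⟨a, le_antisymm ha hb, ReflTransGen.refl, ReflTransGen.refl⟩
  | @tail b' b h1 h2 ih =>
    by_cases e : b.2 = y
    · exact ⟨b, e, ReflTransGen.refl, h1.tail h2⟩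
    · obtain ⟨s, s1, s2, s3⟩ := ih (by have := h2.2.1; omega)
      exact ⟨s, s1, s2.tail ⟨h2.1, h2.2.1, h2.2.2, by
        have := h2.2.1
        simp only
        omega⟩, s3⟩

/-- **Parts of a crossing.** A path from below `y0` to above `y1` contains a crossing of the rows
`[y0, y1)` from `s` to `t`, whose first part crosses the rows `[y0, m0)` and whose last part crosses the
rows `[m1, y1)`. -/
theorem parts {F : Set (ℤ × ℤ)} {a b : ℤ × ℤ} {y0 m0 m1 y1 : ℤ} (h0 : y0 ≤ m0) (h01 : m0 ≤ m1)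
    (h1 : m1 ≤ y1) (ha : a.2 ≤ y0) (hb : y1 ≤ b.2) (h : Pw F a b) :
    ∃ s s1 t1 t : ℤ × ℤ, s.2 = y0 ∧ s1.2 = m0 ∧ t1.2 = m1 ∧ t.2 = y1 ∧
      Pw (Rows F y0 y1) s t ∧ Pw (Rows F y0 m0) s s1 ∧ Pw (Rows F m1 y1) t1 t ∧
      Pw F a s ∧ Pw F t b := by
  obtain ⟨t, ht, h2, h2'⟩ := cut_up (y := y1) (by omega) hb h
  obtain ⟨s, hs, h3, h3'⟩ := cut_lo (y := y0) ha (by omega) h2
  have h4 : Pw (Rows F y0 y1) s t :=
    Pw.mono (G := Rows F y0 y1) (fun v (hv : (v ∈ F ∧ v.2 < y1) ∧ y0 ≤ v.2) =>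
      ⟨hv.1.1, hv.2, hv.1.2⟩) h3
  obtain ⟨s1, hs1, h5, -⟩ := cut_up (y := m0) (by omega) (by omega) h4
  obtain ⟨t1, ht1, h6, -⟩ := cut_lo (y := m1) (by omega) (by omega) h4
  exact ⟨s, s1, t1, t, hs, hs1, ht1, ht, h4,
    Pw.mono (G := Rows F y0 m0) (fun v (hv : v ∈ Rows F y0 y1 ∧ v.2 < m0) =>
      ⟨hv.1.1, hv.1.2.1, hv.2⟩) h5,
    Pw.mono (G := Rows F m1 y1) (fun v (hv : v ∈ Rows F y0 y1 ∧ m1 ≤ v.2) =>
      ⟨hv.1.1, hv.2, hv.1.2.2⟩) h6,
    Pw.mono (G := F) (fun v (hv : v ∈ F ∧ v.2 < y1) => hv.1) h3', h2'⟩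


/-- **Parts of a crossing**, with the colour `c`. -/
theorem parts_c {c : Bool} {ω : Cfg} {κ : Set Pt} {a b y0 m0 m1 y1 : ℤ} (hay : a ≤ y0)
    (h0 : y0 ≤ m0) (h01 : m0 ≤ m1) (h1 : m1 ≤ y1) (hyb : y1 ≤ b)
    (h : ω ∈ NET.Jn c κ (rw c a) (rw c b)) :
    ∃ s ∈ rw c y0, ∃ s1 ∈ rw c m0, ∃ t1 ∈ rw c m1, ∃ t ∈ rw c y1,
      Pw (cs c ω ∩ Rows κ y0 y1) s t ∧ Pw (cs c ω ∩ Rows κ y0 m0) s s1 ∧
      Pw (cs c ω ∩ Rows κ m1 y1) t1 t := by
  obtain ⟨u, ⟨hu2, hu⟩, v, ⟨hv2, hv⟩, huv⟩ := h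
  obtain ⟨s, s1, t1, t, k1, k2, k3, k4, p1, p2, p3, p4, -⟩ :=
    parts (F := cs c ω ∩ κ) (a := u) (b := v) h0 h01 h1 (by omega) (by omega) huv
  have e1 := Pw.parity p4
  have e2 := Pw.parity p1
  have e3 := Pw.parity p2
  have e4 := Pw.parity p3
  have hR : ∀ a b, Rows (cs c ω ∩ κ) a b ⊆ cs c ω ∩ Rows κ a b := fun a b w hw =>
    ⟨hw.1.1, hw.1.2, hw.2⟩
  exact ⟨s, ⟨k1, by omega⟩, s1, ⟨k2, by omega⟩, t1, ⟨k3, by omega⟩, t, ⟨k4, by omega⟩,
    Pw.mono (hR _ _) p1, Pw.mono (hR _ _) p2, Pw.mono (hR _ _) p3⟩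

end Vale.Agent.P167.H575
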