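import Vale.Agent.P167.H906.Wind
import Vale.Agent.P167.H192.TA.Geo

/-!
# P167: the two sides of the crossings of a set without holes

`κ` is a set of squares, `H` the strip of the rows `y0 ≤ y < y1`. All crossings of `H` by paths of even
sites in `κ`, which start in one component of `κ` in the rows `[y0, m0)` and end in one component of `κ`
in the rows `[m1, y1)`, have the same squares of the complement of `κ` on their left and on their right,
if `κ` has no holes (`exists_lab`). `row`: in every row there is a left square and a right square of the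
complement with only squares of `κ` between them.
-/

set_option autoImplicit false

namespace Vale.Agent.P167.H575

open Relation (ReflTransGen)
open Vale.Agent.P145.FB (PStep)
open Vale.Agent.P167.H906 Vale.Agent.P167.H192.TA

/-! ### Rays, local versions -/

theorem ray_pairL {f : Chn} {j m : ℤ}
    (hf : ∀ z : ℤ × ℤ, Even (z.1 + z.2) → z.2 = j + 1 → deg f z = 0) (hm : Even (m + j)) :
    ray f j m + ray f (j + 1) m = 0 := by
  obtain ⟨M, hM⟩ : ∃ M : ℤ, ∀ s ∈ f.support, s.1 < M := by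
    obtain ⟨M, hM⟩ := (f.support.image Prod.fst).bddAbove
    exact ⟨M + 1, fun s hs => by
      have := hM (Finset.mem_coe.2 (Finset.mem_image_of_mem _ hs))
      omega⟩
  have key : ∀ n : ℕ, ∀ m : ℤ, Even (m + j) → M ≤ m + 2 * n →
      ray f j m + ray f (j + 1) m = 0 := by
    intro n
    induction n with
    | zero =>
      intro m _ h
      rw [ray_eq_zero fun s hs _ => ?_, ray_eq_zero fun s hs _ => ?_, add_zero]
      · have := hM s hs
        push_cast at h
        omega
      · have := hM s hs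
        push_cast at h
        omega
    | succ n ih =>
      intro m hm h
      have h1 := ih (m + 2) (by rw [Int.even_iff] at *; omega) (by push_cast at *; omega)
      have h2 := hf (m + 1, j + 1) (by rw [Int.even_iff] at *; simp only; omega) rfl
      simp only [deg, add_sub_cancel_right] at h2
      rw [ray_rec f j m, ray_rec f j (m + 1), ray_rec f (j + 1) m, ray_rec f (j + 1) (m + 1)]
      have e : m + 1 + 1 = m + 2 := by ring
      rw [e]
      calc _ = (f (m + 1, j + 1) + f (m, j + 1) + f (m + 1, j) + f (m, j)) +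
          (ray f j (m + 2) + ray f (j + 1) (m + 2)) := by ring
        _ = 0 := by rw [h1, h2, add_zero]
  have h1 : ((max 0 (M - m)).toNat : ℤ) = max 0 (M - m) := Int.toNat_of_nonneg (le_max_left _ _)
  exact key (max 0 (M - m)).toNat m hm (by rw [h1]; omega)

/-- The parity on the ray does not change when a square outside of the chain is crossed; only the line
between the two rows has to be free of ends. -/
theorem ray_stepL {f : Chn} {p p' : ℤ × ℤ} {F : Set (ℤ × ℤ)}
    (hf : ∀ z : ℤ × ℤ, Even (z.1 + z.2) → z.2 = min p.2 p'.2 + 1 → deg f z = 0)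
    (hp : Odd (p.1 + p.2)) (h : PStep F p p') (hF : ∀ s ∈ F, f s = 0) :
    ray f p'.2 p'.1 = ray f p.2 p.1 := by
  have key : ∀ p p' : ℤ × ℤ,
      (∀ z : ℤ × ℤ, Even (z.1 + z.2) → z.2 = min p.2 p'.2 + 1 → deg f z = 0) →
      Odd (p.1 + p.2) → p'.1 = p.1 + 1 → PStep F p p' →
      ray f p'.2 p'.1 = ray f p.2 p.1 := by
    intro p p' hf hp h1 h
    obtain ⟨p1, p2⟩ := p
    obtain ⟨p1', p2'⟩ := p'
    simp only at h1 hp hf ⊢
    subst h1
    obtain ⟨-, h2, h3⟩ := h
    simp only at h2 h3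
    have h4 := hF _ h3
    have e1 : min p1 (p1 + 1) = p1 := by omega
    rw [e1] at h4
    rcases h2 with h2 | h2
    · subst h2
      have e2 : min p2 (p2 + 1) = p2 := by omega
      rw [e2] at h4 hf
      have h5 := ray_pairL (f := f) (j := p2) (m := p1 + 1) hf
        (by rw [Int.odd_iff] at hp; rw [Int.even_iff]; omega)
      rw [ray_rec f p2 p1, h4, zero_add]
      calc _ = (ray f p2 (p1 + 1) + ray f p2 (p1 + 1)) + ray f (p2 + 1) (p1 + 1) := by
            rw [two_zero, zero_add]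
        _ = ray f p2 (p1 + 1) + (ray f p2 (p1 + 1) + ray f (p2 + 1) (p1 + 1)) := by ring
        _ = _ := by rw [h5, add_zero]
    · subst h2
      have e2 : min p2 (p2 - 1) = p2 - 1 := by omega
      rw [e2] at h4 hf
      have h5 := ray_pairL (f := f) (j := p2 - 1) (m := p1) hf
        (by rw [Int.odd_iff] at hp; rw [Int.even_iff]; omega)
      rw [sub_add_cancel] at h5
      rw [ray_rec f (p2 - 1) p1, h4, zero_add] at h5
      calc _ = ray f (p2 - 1) (p1 + 1) + (ray f p2 p1 + ray f p2 p1) := by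
            rw [two_zero, add_zero]
        _ = (ray f (p2 - 1) (p1 + 1) + ray f p2 p1) + ray f p2 p1 := by ring
        _ = _ := by rw [h5, zero_add]
  rcases h.1 with h1 | h1
  · exact key p p' hf hp h1 h
  · refine (key p' p (by rwa [min_comm]) ?_ (by omega) h.symm).symm
    have h2 := h.2.1
    rw [Int.odd_iff] at *
    omega

theorem ray_rtgL {f : Chn} {F : Set (ℤ × ℤ)} {a b : ℤ}
    (hf : ∀ z : ℤ × ℤ, Even (z.1 + z.2) → a < z.2 → z.2 ≤ b → deg f z = 0)
    {p q : ℤ × ℤ} (hp : Odd (p.1 + p.2)) (h : ReflTransGen (PStep F) p q)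
    (hF : ∀ s ∈ F, f s = 0 ∧ a ≤ s.2 ∧ s.2 < b) : ray f q.2 q.1 = ray f p.2 p.1 := by
  induction h with
  | refl => rfl
  | @tail x y hx h1 ih =>
    refine (ray_stepL (fun z hz h2 => hf z hz ?_ ?_) (odd_rtg hp hx) h1
      fun s hs => (hF s hs).1).trans ih
    · have := (hF _ h1.2.2).2.1
      simp only at this
      omega
    · have := (hF _ h1.2.2).2.2
      simp only at this
      omega

/-! ### Sites which escape -/

/-- `κ` is on one side of `q` in the row of `q`. -/
def OneS (κ : Set (ℤ × ℤ)) (q : ℤ × ℤ) : Prop :=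
  (∀ v ∈ κ, v.2 = q.2 → q.1 ≤ v.1) ∨ (∀ v ∈ κ, v.2 = q.2 → v.1 < q.1)

/-- The site `p` is joined off `κ` to a site which has `κ` on one side. -/
def Esc (κ : Set (ℤ × ℤ)) (p : ℤ × ℤ) : Prop := ∃ q, Pw κᶜ p q ∧ OneS κ q

theorem OneS.mono {κ κ' : Set (ℤ × ℤ)} {q : ℤ × ℤ} (h : κ' ⊆ κ) (hq : OneS κ q) : OneS κ' q := by
  rcases hq with hq | hq
  · exact Or.inl fun v hv h2 => hq v (h hv) h2
  · exact Or.inr fun v hv h2 => hq v (h hv) h2

theorem Esc.mono {κ κ' : Set (ℤ × ℤ)} {p : ℤ × ℤ} (h : κ' ⊆ κ) (hp : Esc κ p) : Esc κ' p := by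
  obtain ⟨q, h1, h2⟩ := hp
  exact ⟨q, h1.mono (Set.compl_subset_compl.2 h), h2.mono h⟩

theorem Esc.of_pw {κ : Set (ℤ × ℤ)} {p q : ℤ × ℤ} (h : Pw κᶜ p q) (hq : Esc κ q) : Esc κ p := by
  obtain ⟨r, h1, h2⟩ := hq
  exact ⟨r, h.trans h1, h2⟩

/-- A cycle in `κ` has no parity at sites which escape. -/
theorem ray_esc {κ : Set (ℤ × ℤ)} {g : Chn} (hg : Cyc g) (ht : ∀ j, tot g j = 0)
    (hs : ∀ v ∈ g.support, v ∈ κ) {p : ℤ × ℤ} (hp : Odd (p.1 + p.2)) (h : Esc κ p) :
    ray g p.2 p.1 = 0 := by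
  obtain ⟨q, h1, h2⟩ := h
  have e := ray_rtg hg hp h1 fun s hs' => Finsupp.notMem_support_iff.1 fun h3 => hs' (hs s h3)
  rw [← e]
  rcases h2 with h2 | h2
  · rw [ray_eq_tot fun s h3 h4 => h2 s (hs s h3) h4, ht]
  · exact ray_eq_zero fun s h3 h4 => h2 s (hs s h3) h4

/-! ### The sides -/

/-- Rows `[a, b)` of `κ`. -/
def Rows (κ : Set (ℤ × ℤ)) (a b : ℤ) : Set (ℤ × ℤ) := {v | v ∈ κ ∧ a ≤ v.2 ∧ v.2 < b}

theorem Rows.sub {κ : Set (ℤ × ℤ)} {a b : ℤ} : Rows κ a b ⊆ κ := fun _ h => h.1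

/-- **The sides.** One crossing from `s` to `t` in `κ` of the rows `[y0, y1)` defines the sides (`1` =
left, `0` = right) of the odd sites of the rows `[m0, m1)`. (1), (2): far left and far right. (3) paths
off `κ`. (4) every other crossing from `s'` to `t'`, with `s'` joined to `s` in the rows `[y0, m0)` of
`κ` and `t'` joined to `t` in the rows `[m1, y1)`, separates the sites of different sides which escape. -/
theorem exists_lab {κ : Set (ℤ × ℤ)} {y0 m0 m1 y1 : ℤ} (h0 : y0 ≤ m0) (h1 : m1 < y1)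
    {s t : ℤ × ℤ} (hs : Even (s.1 + s.2)) (hs2 : s.2 = y0) (ht2 : t.2 = y1)
    (hst : Pw (Rows κ y0 y1) s t) :
    ∃ l : ℤ × ℤ → ZMod 2,
      (∀ p : ℤ × ℤ, y0 ≤ p.2 → p.2 < y1 → (∀ v ∈ κ, v.2 = p.2 → p.1 ≤ v.1) → l p = 1) ∧
      (∀ p : ℤ × ℤ, (∀ v ∈ κ, v.2 = p.2 → v.1 < p.1) → l p = 0) ∧
      (∀ p p' : ℤ × ℤ, Odd (p.1 + p.2) → Pw (Rows κᶜ m0 m1) p p' → l p' = l p) ∧
      (∀ (p p' s' t' : ℤ × ℤ) (F G : Set (ℤ × ℤ)), Odd (p.1 + p.2) → m0 ≤ p.2 → p.2 < m1 →
        m0 ≤ p'.2 → p'.2 < m1 → Esc κ p → Esc κ p' → Pw (Rows κ y0 m0) s s' →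
        Pw (Rows κ m1 y1) t t' → Pw F s' t' → s'.2 = y0 → t'.2 = y1 → F ⊆ κ →
        (∀ v ∈ G, v ∉ F ∧ m0 ≤ v.2 ∧ v.2 < m1) → Pw G p p' → l p' = l p) := by
  obtain ⟨f, f1, f2, f3, -⟩ := chn hs hst
  refine ⟨fun p => ray f p.2 p.1, fun p hp1 hp2 hp => ?_, fun p hp => ?_, fun p p' hp hpp => ?_, ?_⟩
  · show ray f p.2 p.1 = 1
    rw [ray_eq_tot fun v hv h2 => hp v (f1 v hv).1 h2, f3, if_neg (by omega), if_pos (by omega),
      zero_add]
  · exact ray_eq_zero fun v hv h2 => hp v (f1 v hv).1 h2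
  · refine ray_rtgL (a := m0) (b := m1) (fun z hz h2 h3 => ?_) hp hpp fun v hv => ⟨?_, hv.2⟩
    · rw [f2 z hz, if_neg, if_neg, add_zero]
      · rintro rfl; omega
      · rintro rfl; omega
    · exact Finsupp.notMem_support_iff.1 fun h2 => hv.1 (f1 v h2).1
  · intro p p' s' t' F G hp hp1 hp2 hp1' hp2' he he' hss htt hF hs' ht' hFκ hG hpp
    show ray f p'.2 p'.1 = ray f p.2 p.1
    obtain ⟨a, a1, a2, a3, a4⟩ := chn hs hss
    obtain ⟨b, b1, b2, b3, b4⟩ := chn a4 hF
    have ht : Even (t.1 + t.2) := (chn hs hst).choose_spec.2.2.2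
    obtain ⟨c, c1, c2, c3, -⟩ := chn ht htt
    have hp' : Odd (p'.1 + p'.2) := odd_rtg hp hpp
    -- the cycle
    have hcyc : Cyc (f + a + b + c) := by
      intro z hz
      rw [deg_add, deg_add, deg_add, f2 z hz, a2 z hz, b2 z hz, c2 z hz]
      generalize (if z = s then (1 : ZMod 2) else 0) = x1
      generalize (if z = t then (1 : ZMod 2) else 0) = x2
      generalize (if z = s' then (1 : ZMod 2) else 0) = x3
      generalize (if z = t' then (1 : ZMod 2) else 0) = x4
      calc _ = (x1 + x1) + (x2 + x2) + (x3 + x3) + (x4 + x4) := by ring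
        _ = 0 := by simp only [two_zero, add_zero]
    have htot : ∀ j, tot (f + a + b + c) j = 0 := by
      intro j
      rw [tot_add, tot_add, tot_add, f3 j, a3 j, b3 j, c3 j]
      generalize (if j < s.2 then (1 : ZMod 2) else 0) = x1
      generalize (if j < t.2 then (1 : ZMod 2) else 0) = x2
      generalize (if j < s'.2 then (1 : ZMod 2) else 0) = x3
      generalize (if j < t'.2 then (1 : ZMod 2) else 0) = x4
      calc _ = (x1 + x1) + (x2 + x2) + (x3 + x3) + (x4 + x4) := by ring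
        _ = 0 := by simp only [two_zero, add_zero]
    have hsup : ∀ v ∈ (f + a + b + c).support, v ∈ κ := by
      intro v hv
      rcases Finset.mem_union.1 (Finsupp.support_add hv) with hv | hv
      · rcases Finset.mem_union.1 (Finsupp.support_add hv) with hv | hv
        · rcases Finset.mem_union.1 (Finsupp.support_add hv) with hv | hv
          · exact (f1 v hv).1
          · exact (a1 v hv).1
        · exact hFκ (b1 v hv)
      · exact (c1 v hv).1
    -- `f` and `b` have the same parity at sites which escape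
    have key : ∀ r : ℤ × ℤ, Odd (r.1 + r.2) → m0 ≤ r.2 → r.2 < m1 → Esc κ r →
        ray f r.2 r.1 = ray b r.2 r.1 := by
      intro r hr hr1 hr2 hre
      have e := ray_esc hcyc htot hsup hr hre
      rw [ray_add, ray_add, ray_add,
        ray_eq_zero (f := a) fun v hv h2 => absurd (a1 v hv).2.2 (by omega),
        ray_eq_zero (f := c) fun v hv h2 => absurd (c1 v hv).2.1 (by omega), add_zero,
        add_zero] at e
      calc _ = ray f r.2 r.1 + (ray b r.2 r.1 + ray b r.2 r.1) := by rw [two_zero, add_zero]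
        _ = (ray f r.2 r.1 + ray b r.2 r.1) + ray b r.2 r.1 := by ring
        _ = _ := by rw [e, zero_add]
    rw [key p hp hp1 hp2 he, key p' hp' hp1' hp2' he']
    refine ray_rtgL (a := m0) (b := m1) (fun z hz h2 h3 => ?_) hp hpp fun v hv =>
      ⟨Finsupp.notMem_support_iff.1 fun h2 => (hG v hv).1 (b1 v h2), (hG v hv).2⟩
    rw [b2 z hz, if_neg, if_neg, add_zero]
    · rintro rfl; omega
    · rintro rfl; omega

end Vale.Agent.P167.H575
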